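import Vale.Agent.P121.Sheet
import Mathlib.MeasureTheory.Constructions.BorelSpace.Basic

/-!
Five small clusters, the potential on them, and the contact inequality.
-/

open Filter Topology MeasureTheory
open scoped RealInnerProductSpace ENNReal

namespace Vale.Agent.P121

/-- The axes of the two sheets. -/
noncomputable def axis (s : Bool) : Space :=
  EuclideanSpace.single (if s then (1 : Fin 3) else 0) 1

theorem norm_axis (s : Bool) : ‖axis s‖ = 1 := by simp [axis]

theorem inner_axis_of_ne {s s' : Bool} (h : s ≠ s') : ⟪axis s, axis s'⟫ = 0 := by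
  cases s <;> cases s' <;> simp_all [axis, EuclideanSpace.inner_single_left]

/-- All data of the construction. -/
structure Setup where
  K : ℝ
  ε : ℝ
  δ : ℝ
  T : Bool → Space → Space
  S : Bool → Space → Space
  T' : Bool → Space → Space
  S' : Bool → Space → Space
  U : Bool → Set Space
  V : Bool → Set Space
  hK : 30 ≤ K
  hε : 0 < ε
  hε' : ε ≤ 1 / 100
  hδ : 0 < δ
  hδε : δ ≤ ε
  mT : ∀ s, Measurable (T s)
  mS : ∀ s, Measurable (S s)
  mT' : ∀ s, Measurable (T' s)
  mS' : ∀ s, Measurable (S' s)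
  dT' : ∀ s, DifferentiableOn ℝ (T' s) (U s)
  dS' : ∀ s, DifferentiableOn ℝ (S' s) (V s)
  memT : ∀ s, ∀ x ∈ Metric.ball (0 : Space) δ, T s x ∈ Metric.ball (axis s) ε ∩ U s
  memS : ∀ s, ∀ x ∈ Metric.ball (0 : Space) δ, S s x ∈ Metric.ball (-axis s) ε ∩ V s
  leftT : ∀ s, ∀ x ∈ Metric.ball (0 : Space) δ, T' s (T s x) = x
  leftS : ∀ s, ∀ x ∈ Metric.ball (0 : Space) δ, S' s (S s x) = x
  hcrit : ∀ s, ∀ x ∈ Metric.ball (0 : Space) δ, crit K (axis s) (x, T s x, S s x) = 0
  bdX : ∀ x ∈ Metric.ball (0 : Space) ε, |potX K x - 5 / 2| ≤ 1 / 100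
  bdY : ∀ s, ∀ y ∈ Metric.ball (axis s) ε, |potY K (axis s) y| ≤ 1 / 100
  bdZ : ∀ s, ∀ x ∈ Metric.ball (0 : Space) ε, ∀ y ∈ Metric.ball (axis s) ε,
    ∀ z ∈ Metric.ball (-axis s) ε, |excess K (axis s) x y z| ≤ 1 / 100

theorem measurable_excess (K : ℝ) (e : Space) :
    Measurable (fun w : Triple => excess K e w.1 w.2.1 w.2.2) := by
  unfold excess realCost potX potY
  fun_prop

theorem exists_setup : Nonempty Setup := by
  classical
  obtain ⟨K₀, hK₀⟩ := exists_sheet (axis false) (norm_axis _)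
  obtain ⟨K₁, hK₁⟩ := exists_sheet (axis true) (norm_axis _)
  let K := max 30 (max K₀ K₁)
  have hX : ∀ᶠ x in 𝓝 (0 : Space), |potX K x - 5 / 2| < 1 / 100 := by
    refine ContinuousAt.eventually_lt (f := fun x => |potX K x - 5 / 2|) ?_ continuousAt_const ?_
    · unfold potX; fun_prop
    · simp [potX]
  have hY : ∀ s, ∀ᶠ y in 𝓝 (axis s), |potY K (axis s) y| < 1 / 100 := by
    intro s
    refine ContinuousAt.eventually_lt (f := fun y => |potY K (axis s) y|) ?_ continuousAt_const ?_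
    · unfold potY; fun_prop
    · simp [potY]
  have hZ : ∀ s, ∀ᶠ w in 𝓝 ((0, axis s, -axis s) : Triple),
      |excess K (axis s) w.1 w.2.1 w.2.2| < 1 / 100 := by
    intro s
    have he : axis s ≠ 0 := by intro h; simpa [h] using norm_axis s
    have h2 : axis s + axis s ≠ 0 := by
      rw [← two_smul ℝ (axis s)]; exact smul_ne_zero two_ne_zero he
    refine ContinuousAt.eventually_lt
      (f := fun w : Triple => |excess K (axis s) w.1 w.2.1 w.2.2|) ?_ continuousAt_const ?_
    · have i1 : ContinuousAt (fun w : Triple => ‖w.1 - w.2.1‖⁻¹) (0, axis s, -axis s) :=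
        ContinuousAt.inv₀ (by fun_prop) (by simp [he])
      have i2 : ContinuousAt (fun w : Triple => ‖w.1 - w.2.2‖⁻¹) (0, axis s, -axis s) :=
        ContinuousAt.inv₀ (by fun_prop) (by simp [he])
      have i3 : ContinuousAt (fun w : Triple => ‖w.2.1 - w.2.2‖⁻¹) (0, axis s, -axis s) :=
        ContinuousAt.inv₀ (by fun_prop) (norm_ne_zero_iff.2 (by rw [sub_neg_eq_add]; exact h2))
      unfold excess realCost potX potY
      exact ((((i1.add i2).add i3).sub (by fun_prop)).sub (by fun_prop)).abs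
    · have : ‖axis s + axis s‖ = 2 := by
        rw [← two_smul ℝ (axis s), norm_smul, norm_axis]; norm_num
      simp [excess, realCost, potX, potY, norm_axis, this]
      norm_num
  obtain ⟨η₁, hη₁, h₁⟩ := Metric.eventually_nhds_iff_ball.1 hX
  choose η₂ hη₂ h₂ using fun s => Metric.eventually_nhds_iff_ball.1 (hY s)
  choose η₃ hη₃ h₃ using fun s => Metric.eventually_nhds_iff_ball.1 (hZ s)
  let ε := min (1 / 100) (min η₁ (min (min (η₂ false) (η₂ true)) (min (η₃ false) (η₃ true))))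
  have hε : 0 < ε := by
    simp only [ε, lt_min_iff]
    exact ⟨by norm_num, hη₁, ⟨hη₂ _, hη₂ _⟩, hη₃ _, hη₃ _⟩
  have hε₁ : ε ≤ η₁ := by simp [ε]
  have hε₂ : ∀ s, ε ≤ η₂ s := by intro s; cases s <;> simp [ε]
  have hε₃ : ∀ s, ε ≤ η₃ s := by intro s; cases s <;> simp [ε]
  have key : ∀ s, ∃ (δ : ℝ) (T S T' S' : Space → Space)
      (U V : Set Space), 0 < δ ∧ δ ≤ ε ∧
      DifferentiableOn ℝ T' U ∧ DifferentiableOn ℝ S' V ∧ IsOpen U ∧ IsOpen V ∧
      ContinuousOn T (Metric.ball 0 δ) ∧ ContinuousOn S (Metric.ball 0 δ) ∧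
      ∀ x ∈ Metric.ball (0 : Space) δ, T x ∈ Metric.ball (axis s) ε ∧
        S x ∈ Metric.ball (-axis s) ε ∧ T x ∈ U ∧ S x ∈ V ∧ T' (T x) = x ∧ S' (S x) = x ∧
        crit K (axis s) (x, T x, S x) = 0 := by
    intro s
    cases s
    · exact hK₀ K ((le_max_left K₀ K₁).trans (le_max_right _ _)) ε hε
    · exact hK₁ K ((le_max_right K₀ K₁).trans (le_max_right _ _)) ε hε
  choose δ T S T' S' U V hδ hδε dT dS oU oV cT cS hmain using key
  have hsub : ∀ s, Metric.ball (0 : Space) (min (δ false) (δ true)) ⊆ Metric.ball 0 (δ s) :=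
    fun s => Metric.ball_subset_ball (by cases s <;> simp)
  refine ⟨⟨K, ε, min (δ false) (δ true),
    fun s => (Metric.ball (0 : Space) (δ s)).piecewise (T s) (fun _ => 0),
    fun s => (Metric.ball (0 : Space) (δ s)).piecewise (S s) (fun _ => 0),
    fun s => (U s).piecewise (T' s) (fun _ => 0), fun s => (V s).piecewise (S' s) (fun _ => 0),
    U, V, le_max_left _ _, hε, min_le_left _ _, lt_min (hδ _) (hδ _),
    (min_le_left _ _).trans (hδε _), ?_, ?_, ?_, ?_, ?_, ?_, ?_, ?_, ?_, ?_, ?_, ?_, ?_, ?_⟩⟩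
  · exact fun s => (cT s).measurable_piecewise continuousOn_const Metric.isOpen_ball.measurableSet
  · exact fun s => (cS s).measurable_piecewise continuousOn_const Metric.isOpen_ball.measurableSet
  · exact fun s => (dT s).continuousOn.measurable_piecewise continuousOn_const (oU s).measurableSet
  · exact fun s => (dS s).continuousOn.measurable_piecewise continuousOn_const (oV s).measurableSet
  · exact fun s => (dT s).congr fun y hy => Set.piecewise_eq_of_mem _ _ _ hy
  · exact fun s => (dS s).congr fun y hy => Set.piecewise_eq_of_mem _ _ _ hy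
  · intro s x hx
    obtain ⟨a, -, b, -⟩ := hmain s x (hsub s hx)
    rw [Set.piecewise_eq_of_mem _ _ _ (hsub s hx)]
    exact ⟨a, b⟩
  · intro s x hx
    obtain ⟨-, a, -, b, -⟩ := hmain s x (hsub s hx)
    rw [Set.piecewise_eq_of_mem _ _ _ (hsub s hx)]
    exact ⟨a, b⟩
  · intro s x hx
    obtain ⟨-, -, hu, -, h, -, -⟩ := hmain s x (hsub s hx)
    rw [Set.piecewise_eq_of_mem _ _ _ (hsub s hx), Set.piecewise_eq_of_mem _ _ _ hu, h]
  · intro s x hx
    obtain ⟨-, -, -, hv, -, h, -⟩ := hmain s x (hsub s hx)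
    rw [Set.piecewise_eq_of_mem _ _ _ (hsub s hx), Set.piecewise_eq_of_mem _ _ _ hv, h]
  · intro s x hx
    rw [Set.piecewise_eq_of_mem _ _ _ (hsub s hx), Set.piecewise_eq_of_mem _ _ _ (hsub s hx)]
    exact (hmain s x (hsub s hx)).2.2.2.2.2.2
  · exact fun x hx => (h₁ x (Metric.ball_subset_ball hε₁ hx)).le
  · exact fun s y hy => (h₂ s y (Metric.ball_subset_ball (hε₂ s) hy)).le
  · intro s x hx y hy z hz
    refine (h₃ s (x, y, z) ?_).le
    simp only [Metric.mem_ball, Prod.dist_eq, max_lt_iff] at hx hy hz ⊢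
    exact ⟨hx.trans_le (hε₃ s), hy.trans_le (hε₃ s), hz.trans_le (hε₃ s)⟩

namespace Setup

variable (D : Setup)

/-- The cluster at the origin. -/
def X : Set Space := Metric.ball 0 D.δ

/-- The four outer clusters. -/
def Y (s : Bool) : Set Space := Metric.ball (axis s) D.ε

/-- The balls around the centres `-axis s`. -/
def W (s : Bool) : Set Space := Metric.ball (-axis s) D.ε

/-- The part of `W s` lying on sheet `s`. -/
def Z (s : Bool) : Set Space :=
  {z | z ∈ D.W s ∧ D.S' s z ∈ D.X ∧ D.S s (D.S' s z) = z}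

/-- A set carrying the marginal. -/
def Supp : Set Space := {a | a ∈ D.X ∨ ∃ s, a ∈ D.Y s ∨ a ∈ D.Z s}

theorem dist_centre (s : Bool) : dist (0 : Space) (axis s) = 1 ∧ dist (0 : Space) (-axis s) = 1 := by
  simp [norm_axis]

/-- Two points of two balls are separated by their centres. -/
theorem not_mem_both {a c c' : Space} {r r' : ℝ} (h : a ∈ Metric.ball c r)
    (hd : r + r' ≤ dist c c') : a ∉ Metric.ball c' r' := by
  intro h'
  rw [Metric.mem_ball] at h h'
  have := dist_triangle c a c'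
  rw [dist_comm c a] at this
  linarith

theorem two_le_dist (s : Bool) : (2 : ℝ) ≤ dist (axis s) (-axis s) := by
  rw [dist_eq_norm, sub_neg_eq_add, ← two_smul ℝ (axis s), norm_smul, norm_axis]
  norm_num

theorem sqrt_two_dist {s s' : Bool} (h : s ≠ s') (c c' : Space)
    (hc : c = axis s ∨ c = -axis s) (hc' : c' = axis s' ∨ c' = -axis s') :
    1 ≤ dist c c' ∧ dist c c' ≤ 71 / 50 := by
  have hsq : dist c c' ^ 2 = 2 := by
    rw [dist_eq_norm, norm_sub_sq_real]
    rcases hc with rfl | rfl <;> rcases hc' with rfl | rfl <;>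
      simp [norm_axis, inner_axis_of_ne h] <;> norm_num
  constructor <;> nlinarith [dist_nonneg (x := c) (y := c')]

theorem X_not_Y {a : Space} (h : a ∈ D.X) (s : Bool) : a ∉ D.Y s ∧ a ∉ D.W s :=
  ⟨not_mem_both h (by rw [(dist_centre s).1]; linarith [D.hε', D.hδε]),
   not_mem_both h (by rw [(dist_centre s).2]; linarith [D.hε', D.hδε])⟩

theorem Y_not_W {a : Space} {s : Bool} (h : a ∈ D.Y s) : a ∉ D.W s :=
  not_mem_both h (by linarith [D.hε', two_le_dist s])

theorem Y_not_other {a : Space} {s : Bool} (h : a ∈ D.Y s) : a ∉ D.Y (!s) ∧ a ∉ D.W (!s) :=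
  ⟨not_mem_both h (by
    linarith [D.hε', (sqrt_two_dist (s := s) (s' := !s) (by simp) _ _ (Or.inl rfl) (Or.inl rfl)).1]),
   not_mem_both h (by
    linarith [D.hε', (sqrt_two_dist (s := s) (s' := !s) (by simp) _ _ (Or.inl rfl) (Or.inr rfl)).1])⟩

theorem W_not_other {a : Space} {s : Bool} (h : a ∈ D.W s) : a ∉ D.Y (!s) ∧ a ∉ D.W (!s) :=
  ⟨not_mem_both h (by
    linarith [D.hε', (sqrt_two_dist (s := s) (s' := !s) (by simp) _ _ (Or.inr rfl) (Or.inl rfl)).1]),
   not_mem_both h (by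
    linarith [D.hε', (sqrt_two_dist (s := s) (s' := !s) (by simp) _ _ (Or.inr rfl) (Or.inr rfl)).1])⟩

theorem T_mem {s : Bool} {x : Space} (h : x ∈ D.X) : D.T s x ∈ D.Y s := (D.memT s x h).1

theorem S_mem {s : Bool} {x : Space} (h : x ∈ D.X) : D.S s x ∈ D.Z s :=
  ⟨(D.memS s x h).1, by rw [D.leftS s x h]; exact h, by rw [D.leftS s x h]⟩

open Classical in
/-- The Kantorovich potential. -/
noncomputable def pot (a : Space) : ℝ :=
  if a ∈ D.X then potX D.K a
  else if a ∈ D.Y false then potY D.K (axis false) a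
  else if a ∈ D.Y true then potY D.K (axis true) a
  else if a ∈ D.W false then
    excess D.K (axis false) (D.S' false a) (D.T false (D.S' false a)) a
  else excess D.K (axis true) (D.S' true a) (D.T true (D.S' true a)) a

theorem measurable_pot : Measurable D.pot := by
  have hz : ∀ s, Measurable fun a => excess D.K (axis s) (D.S' s a) (D.T s (D.S' s a)) a :=
    fun s => Measurable.comp (g := fun w : Triple => excess D.K (axis s) w.1 w.2.1 w.2.2)
      (f := fun a => (D.S' s a, D.T s (D.S' s a), a)) (measurable_excess D.K (axis s))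
      ((D.mS' s).prodMk (((D.mT s).comp (D.mS' s)).prodMk measurable_id))
  have hy : ∀ e : Space, Measurable (potY D.K e) := fun e => by unfold potY; fun_prop
  have hx : Measurable (potX D.K) := by unfold potX; fun_prop
  exact Measurable.ite Metric.isOpen_ball.measurableSet hx
    (Measurable.ite Metric.isOpen_ball.measurableSet (hy _)
      (Measurable.ite Metric.isOpen_ball.measurableSet (hy _)
        (Measurable.ite Metric.isOpen_ball.measurableSet (hz _) (hz _))))

theorem pot_X {a : Space} (h : a ∈ D.X) : D.pot a = potX D.K a := if_pos h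

theorem pot_Y {a : Space} {s : Bool} (h : a ∈ D.Y s) : D.pot a = potY D.K (axis s) a := by
  have hx : a ∉ D.X := fun hx => (D.X_not_Y hx s).1 h
  have := (D.Y_not_other h).1
  cases s <;> simp_all [pot]

theorem pot_W {a : Space} {s : Bool} (h : a ∈ D.W s) :
    D.pot a = excess D.K (axis s) (D.S' s a) (D.T s (D.S' s a)) a := by
  have hx : a ∉ D.X := fun hx => (D.X_not_Y hx s).2 h
  have h1 : a ∉ D.Y s := fun hy => D.Y_not_W hy h
  have h2 := D.W_not_other h
  cases s <;> simp_all [pot]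

theorem bd_Y {a : Space} {s : Bool} (h : a ∈ D.Y s ∨ a ∈ D.Z s) : |D.pot a| ≤ 1 / 100 := by
  rcases h with h | h
  · rw [D.pot_Y h]; exact D.bdY s a h
  · obtain ⟨hw, hx, -⟩ := h
    rw [D.pot_W hw]
    exact D.bdZ s _ (Metric.ball_subset_ball D.hδε hx) _ (D.T_mem hx) a hw

theorem bd_supp {a : Space} (h : a ∈ D.Supp) : -1 ≤ D.pot a ∧ D.pot a ≤ 3 := by
  rcases h with h | ⟨s, h⟩
  · have := abs_le.1 (D.bdX a (Metric.ball_subset_ball D.hδε h))
    rw [D.pot_X h]; constructor <;> linarith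
  · have := abs_le.1 (D.bd_Y h); constructor <;> linarith

/-- A permutation of a triple on one of the two sheets. -/
def Good (a b c : Space) : Prop :=
  ∃ s, ∃ x ∈ D.X,
    (a = x ∧ b = D.T s x ∧ c = D.S s x) ∨ (a = x ∧ b = D.S s x ∧ c = D.T s x) ∨
    (a = D.T s x ∧ b = x ∧ c = D.S s x) ∨ (a = D.T s x ∧ b = D.S s x ∧ c = x) ∨
    (a = D.S s x ∧ b = x ∧ c = D.T s x) ∨ (a = D.S s x ∧ b = D.T s x ∧ c = x)

/-- The pointwise dual inequality, with its equality case. -/
def Ineq (a b c : Space) : Prop :=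
  D.pot a + D.pot b + D.pot c < realCost a b c ∨
    (D.pot a + D.pot b + D.pot c = realCost a b c ∧ D.Good a b c)

theorem realCost_swap₁₂ (a b c : Space) : realCost b a c = realCost a b c := by
  unfold realCost; rw [norm_sub_rev b a]; ring

theorem realCost_swap₂₃ (a b c : Space) : realCost a c b = realCost a b c := by
  unfold realCost; rw [norm_sub_rev c b]; ring

theorem Ineq.swap₁₂ {a b c : Space} (h : D.Ineq a b c) : D.Ineq b a c := by
  unfold Ineq at *
  rw [realCost_swap₁₂]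
  rcases h with h | ⟨h, s, x, hx, hg⟩
  · left; linarith
  · right; exact ⟨by linarith, s, x, hx, by tauto⟩

theorem Ineq.swap₂₃ {a b c : Space} (h : D.Ineq a b c) : D.Ineq a c b := by
  unfold Ineq at *
  rw [realCost_swap₂₃]
  rcases h with h | ⟨h, s, x, hx, hg⟩
  · left; linarith
  · right; exact ⟨by linarith, s, x, hx, by tauto⟩

theorem inv_dist_lb {a b c c' : Space} {r : ℝ} (hab : a ≠ b) (ha : a ∈ Metric.ball c D.ε)
    (hb : b ∈ Metric.ball c' D.ε) (hd : dist c c' + 1 / 50 ≤ r) : r⁻¹ ≤ ‖a - b‖⁻¹ := by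
  rw [Metric.mem_ball] at ha hb
  apply inv_anti₀ (norm_pos_iff.2 (sub_ne_zero.2 hab))
  rw [← dist_eq_norm]
  have h1 := dist_triangle4 a c c' b
  rw [dist_comm c' b] at h1
  linarith [D.hε']

theorem ineq_pair {a b c : Space} (hab : a ≠ b) {o : Space} (ha : a ∈ Metric.ball o D.ε)
    (hb : b ∈ Metric.ball o D.ε) (sa : a ∈ D.Supp) (sb : b ∈ D.Supp) (sc : c ∈ D.Supp) :
    D.Ineq a b c := by
  left
  have h := D.inv_dist_lb (r := 1 / 50) hab ha hb (by simp)
  have := (D.bd_supp sa).2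
  have := (D.bd_supp sb).2
  have := (D.bd_supp sc).2
  have : 0 ≤ ‖a - c‖⁻¹ + ‖b - c‖⁻¹ := by positivity
  unfold realCost
  norm_num at h
  linarith

theorem centre {a : Space} {s : Bool} (h : a ∈ D.Y s ∨ a ∈ D.Z s) :
    ∃ c, (c = axis s ∨ c = -axis s) ∧ a ∈ Metric.ball c D.ε := by
  rcases h with h | h
  · exact ⟨_, Or.inl rfl, h⟩
  · exact ⟨_, Or.inr rfl, h.1⟩

theorem ineq_outer {a b c : Space} (hab : a ≠ b) (hac : a ≠ c) (hbc : b ≠ c) {i j k : Bool}
    (ha : a ∈ D.Y i ∨ a ∈ D.Z i) (hb : b ∈ D.Y j ∨ b ∈ D.Z j) (hc : c ∈ D.Y k ∨ c ∈ D.Z k) :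
    D.Ineq a b c := by
  left
  obtain ⟨p, hp, ap⟩ := D.centre ha
  obtain ⟨q, hq, bq⟩ := D.centre hb
  obtain ⟨r, hr, cr⟩ := D.centre hc
  have nrm : ∀ {v : Space} {t : Bool}, v = axis t ∨ v = -axis t → ‖v‖ = 1 := by
    rintro v t (rfl | rfl) <;> simp [norm_axis]
  have dd : ∀ {v w : Space} {t u : Bool}, (v = axis t ∨ v = -axis t) →
      (w = axis u ∨ w = -axis u) → dist v w + 1 / 50 ≤ 101 / 50 := by
    intro v w t u hv hw
    have := norm_sub_le v w
    rw [nrm hv, nrm hw, ← dist_eq_norm] at this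
    linarith
  have h1 := D.inv_dist_lb hab ap bq (dd hp hq)
  have h2 := D.inv_dist_lb hac ap cr (dd hp hr)
  have h3 := D.inv_dist_lb hbc bq cr (dd hq hr)
  have := abs_le.1 (D.bd_Y ha)
  have := abs_le.1 (D.bd_Y hb)
  have := abs_le.1 (D.bd_Y hc)
  unfold realCost
  norm_num at h1 h2 h3
  linarith

theorem ineq_sheet {a b c : Space} {s : Bool} (hab : a ≠ b) (hac : a ≠ c) (hbc : b ≠ c)
    (ha : a ∈ D.X) (hb : b ∈ D.Y s) (hc : c ∈ D.Z s) : D.Ineq a b c := by
  obtain ⟨hw, hx, hS⟩ := hc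
  have h := D.pot_W hw
  set x := D.S' s c
  set y := D.T s x with hy
  unfold Ineq
  rw [D.pot_X ha, D.pot_Y hb, h]
  by_cases heq : a = x ∧ b = y
  · obtain ⟨rfl, rfl⟩ := heq
    exact Or.inr ⟨by unfold excess; ring, s, x, hx, Or.inl ⟨rfl, hy, hS.symm⟩⟩
  · left
    have hyball : y ∈ Metric.ball (axis s) D.ε := D.T_mem hx
    have d0 := dist_centre s
    have d2 := two_le_dist s
    have hxb : x ∈ Metric.ball (0 : Space) D.ε := Metric.ball_subset_ball D.hδε hx
    have far : ∀ {v w o o' : Space}, v ∈ Metric.ball o D.ε → w ∈ Metric.ball o' D.ε →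
        1 ≤ dist o o' → 1 / 2 ≤ ‖v - w‖ := by
      intro v w o o' hv hw' hd
      rw [Metric.mem_ball] at hv hw'
      have := dist_triangle4 o v w o'
      rw [dist_comm o v] at this
      rw [← dist_eq_norm]
      linarith [D.hε']
    have hcr : crit D.K (axis s) (x, y, c) = 0 := by
      have := D.hcrit s x hx
      rwa [hS] at this
    have := excess_lt D.hK (far hxb hyball d0.1.ge) (far hxb hw d0.2.ge)
      (far hyball hw (by linarith)) hcr hab hac hbc (not_and_or.1 heq)
    unfold excess at this ⊢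
    linarith

theorem ineq_cross {a b c : Space} {s t : Bool} (hst : s ≠ t) (hab : a ≠ b) (hac : a ≠ c)
    (hbc : b ≠ c) (ha : a ∈ D.X) (hb : b ∈ D.Y s ∨ b ∈ D.Z s) (hc : c ∈ D.Y t ∨ c ∈ D.Z t) :
    D.Ineq a b c := by
  left
  obtain ⟨q, hq, bq⟩ := D.centre hb
  obtain ⟨r, hr, cr⟩ := D.centre hc
  have ha' : a ∈ Metric.ball (0 : Space) D.ε := Metric.ball_subset_ball D.hδε ha
  have d : ∀ {v : Space} {t : Bool}, v = axis t ∨ v = -axis t →
      dist (0 : Space) v + 1 / 50 ≤ 51 / 50 := by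
    rintro v t (rfl | rfl) <;> simp [norm_axis] <;> norm_num
  have h1 := D.inv_dist_lb hab ha' bq (d hq)
  have h2 := D.inv_dist_lb hac ha' cr (d hr)
  have h3 := D.inv_dist_lb (r := 72 / 50) hbc bq cr (by linarith [(sqrt_two_dist hst q r hq hr).2])
  have := abs_le.1 (D.bdX a ha')
  have := abs_le.1 (D.bd_Y hb)
  have := abs_le.1 (D.bd_Y hc)
  rw [D.pot_X ha]
  unfold realCost
  norm_num at h1 h2 h3
  linarith

theorem ineq_one {a b c : Space} (hab : a ≠ b) (hac : a ≠ c) (hbc : b ≠ c) {s t : Bool}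
    (ha : a ∈ D.X) (hb : b ∈ D.Y s ∨ b ∈ D.Z s) (hc : c ∈ D.Y t ∨ c ∈ D.Z t) :
    D.Ineq a b c := by
  by_cases hst : s = t
  · subst hst
    have sa : a ∈ D.Supp := Or.inl ha
    have sb : b ∈ D.Supp := Or.inr ⟨s, hb⟩
    have sc : c ∈ D.Supp := Or.inr ⟨s, hc⟩
    rcases hb with hb | hb <;> rcases hc with hc | hc
    · exact Ineq.swap₁₂ D (Ineq.swap₂₃ D (D.ineq_pair hbc hb hc sb sc sa))
    · exact D.ineq_sheet hab hac hbc ha hb hc
    · exact Ineq.swap₂₃ D (D.ineq_sheet hac hab hbc.symm ha hc hb)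
    · exact Ineq.swap₁₂ D (Ineq.swap₂₃ D (D.ineq_pair hbc hb.1 hc.1 sb sc sa))
  · exact D.ineq_cross hst hab hac hbc ha hb hc

theorem ineq_all {a b c : Space} (hab : a ≠ b) (hac : a ≠ c) (hbc : b ≠ c)
    (sa : a ∈ D.Supp) (sb : b ∈ D.Supp) (sc : c ∈ D.Supp) : D.Ineq a b c := by
  have xball : ∀ {v : Space}, v ∈ D.X → v ∈ Metric.ball (0 : Space) D.ε :=
    fun h => Metric.ball_subset_ball D.hδε h
  rcases id sa with ha | ⟨i, ha⟩ <;> rcases id sb with hb | ⟨j, hb⟩ <;>
    rcases id sc with hc | ⟨k, hc⟩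
  · exact D.ineq_pair hab (xball ha) (xball hb) sa sb sc
  · exact D.ineq_pair hab (xball ha) (xball hb) sa sb sc
  · exact Ineq.swap₂₃ D (D.ineq_pair hac (xball ha) (xball hc) sa sc sb)
  · exact D.ineq_one hab hac hbc ha hb hc
  · exact Ineq.swap₁₂ D (Ineq.swap₂₃ D (D.ineq_pair hbc (xball hb) (xball hc) sb sc sa))
  · exact Ineq.swap₁₂ D (D.ineq_one hab.symm hbc hac hb ha hc)
  · exact Ineq.swap₂₃ D (Ineq.swap₁₂ D (D.ineq_one hac.symm hbc.symm hab hc ha hb))
  · exact D.ineq_outer hab hac hbc ha hb hc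

/-- The shifted potential with values in `[0, ∞]`. -/
noncomputable def vpot (a : Space) : ℝ≥0∞ := ENNReal.ofReal (D.pot a + 1)

theorem measurable_vpot : Measurable D.vpot :=
  (D.measurable_pot.add_const 1).ennreal_ofReal

theorem coulomb_eq {a b c : Space} (hab : a ≠ b) (hac : a ≠ c) (hbc : b ≠ c) :
    coulomb a b c = ENNReal.ofReal (realCost a b c) := by
  have h : ∀ {v w : Space}, v ≠ w → (edist v w)⁻¹ = ENNReal.ofReal ‖v - w‖⁻¹ := by
    intro v w hvw
    rw [edist_dist, dist_eq_norm, ENNReal.ofReal_inv_of_pos (norm_pos_iff.2 (sub_ne_zero.2 hvw))]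
  rw [coulomb, h hab, h hac, h hbc, realCost, ENNReal.ofReal_add (by positivity) (by positivity),
    ENNReal.ofReal_add (by positivity) (by positivity)]

theorem vpot_sum {a b c : Space} (sa : a ∈ D.Supp) (sb : b ∈ D.Supp) (sc : c ∈ D.Supp) :
    D.vpot a + D.vpot b + D.vpot c ≤ coulomb a b c + 3 ∧
      (D.vpot a + D.vpot b + D.vpot c = coulomb a b c + 3 → D.Good a b c) := by
  have ha := (D.bd_supp sa).1
  have hb := (D.bd_supp sb).1
  have hc := (D.bd_supp sc).1
  by_cases hd : a ≠ b ∧ a ≠ c ∧ b ≠ c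
  · obtain ⟨hab, hac, hbc⟩ := hd
    have hs : D.vpot a + D.vpot b + D.vpot c
        = ENNReal.ofReal (D.pot a + D.pot b + D.pot c + 3) := by
      simp only [vpot]
      rw [← ENNReal.ofReal_add (by linarith) (by linarith),
        ← ENNReal.ofReal_add (by linarith) (by linarith)]
      congr 1; ring
    have h0 : 0 ≤ realCost a b c := by unfold realCost; positivity
    have hr : coulomb a b c + 3 = ENNReal.ofReal (realCost a b c + 3) := by
      rw [coulomb_eq hab hac hbc, ENNReal.ofReal_add h0 (by norm_num), ENNReal.ofReal_ofNat]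
    rw [hs, hr]
    rcases D.ineq_all hab hac hbc sa sb sc with h | ⟨h, hg⟩
    · refine ⟨ENNReal.ofReal_le_ofReal (by linarith), fun he => ?_⟩
      rw [ENNReal.ofReal_eq_ofReal_iff (by linarith) (by linarith)] at he
      linarith
    · exact ⟨ENNReal.ofReal_le_ofReal (by linarith), fun _ => hg⟩
  · have htop : coulomb a b c = ⊤ := by
      simp only [ne_eq, not_and_or, not_not] at hd
      rcases hd with rfl | rfl | rfl <;> simp [coulomb]
    rw [htop, top_add]
    exact ⟨le_top, fun he => absurd he (by simp [vpot])⟩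

theorem vpot_sheet {s : Bool} {x : Space} (h : x ∈ D.X) :
    coulomb x (D.T s x) (D.S s x) + 3 = D.vpot x + D.vpot (D.T s x) + D.vpot (D.S s x) := by
  have hT := D.T_mem (s := s) h
  have hS := D.S_mem (s := s) h
  have hab : x ≠ D.T s x := fun he => (D.X_not_Y h s).1 (by rw [he]; exact hT)
  have hac : x ≠ D.S s x := fun he => (D.X_not_Y h s).2 (by rw [he]; exact hS.1)
  have hbc : D.T s x ≠ D.S s x := fun he => D.Y_not_W hT (by rw [he]; exact hS.1)
  have hsum : D.pot x + D.pot (D.T s x) + D.pot (D.S s x)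
      = realCost x (D.T s x) (D.S s x) := by
    rw [D.pot_X h, D.pot_Y hT, D.pot_W hS.1, D.leftS s x h]
    unfold excess; ring
  have ha := (D.bd_supp (Or.inl h)).1
  have hb := (D.bd_supp (Or.inr ⟨s, Or.inl hT⟩)).1
  have hc := (D.bd_supp (Or.inr ⟨s, Or.inr hS⟩)).1
  have h0 : 0 ≤ realCost x (D.T s x) (D.S s x) := by unfold realCost; positivity
  rw [coulomb_eq hab hac hbc]
  simp only [vpot]
  rw [← ENNReal.ofReal_add (by linarith) (by linarith),
    ← ENNReal.ofReal_add (by linarith) (by linarith), ← ENNReal.ofReal_ofNat,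
    ← ENNReal.ofReal_add h0 (by norm_num)]
  congr 1; linarith

end Setup

end Vale.Agent.P121
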