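import Mathlib.Analysis.InnerProductSpace.PiL2
import Mathlib.MeasureTheory.Measure.Haar.InnerProductSpace
import Mathlib.MeasureTheory.Integral.Lebesgue.Markov

/-!
The three-particle Coulomb cost and the Kantorovich value, for the three-marginal
Coulomb transport question.
-/

open MeasureTheory ENNReal

namespace Vale.Agent.P121

/-- Euclidean three-space. -/
abbrev Space : Type := EuclideanSpace ℝ (Fin 3)

/-- The Coulomb cost `1/|x-y| + 1/|x-z| + 1/|y-z|` in `[0, ∞]`; since `0⁻¹ = ∞` there,
it is `∞` as soon as two points coincide. -/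
noncomputable def coulomb (x y z : Space) : ℝ≥0∞ :=
  (edist x y)⁻¹ + (edist x z)⁻¹ + (edist y z)⁻¹

/-- Couplings all whose three marginals are `μ`. -/
def Couplings (μ : Measure Space) : Set (Measure (Space × Space × Space)) :=
  {π | π.map (fun w => w.1) = μ ∧ π.map (fun w => w.2.1) = μ ∧ π.map (fun w => w.2.2) = μ}

/-- The Kantorovich value. -/
noncomputable def kantorovich (μ : Measure Space) : ℝ≥0∞ :=
  ⨅ π ∈ Couplings μ, ∫⁻ w, coulomb w.1 w.2.1 w.2.2 ∂π

/-- The cost of the Monge plan given by the maps `T₂`, `T₃`. -/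
noncomputable def mongeCost (μ : Measure Space) (T₂ T₃ : Space → Space) : ℝ≥0∞ :=
  ∫⁻ x, coulomb x (T₂ x) (T₃ x) ∂μ

end Vale.Agent.P121
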