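import Vale.Agent.P121.Clusters
import Mathlib.MeasureTheory.Measure.Lebesgue.EqHaar

/-!
The marginal, the split optimal coupling and the obstruction to Monge plans.
-/

open MeasureTheory
open scoped ENNReal

namespace Vale.Agent.P121

theorem coulomb_comm₁₂ (a b c : Space) : coulomb b a c = coulomb a b c := by
  unfold coulomb; rw [edist_comm b a]; ring

theorem coulomb_comm₂₃ (a b c : Space) : coulomb a c b = coulomb a b c := by
  unfold coulomb; rw [edist_comm c b]; ring

theorem measurable_coulomb : Measurable fun w : Triple => coulomb w.1 w.2.1 w.2.2 := by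
  unfold coulomb
  fun_prop

namespace Setup

variable (D : Setup)

theorem measurableSet_X : MeasurableSet D.X := Metric.isOpen_ball.measurableSet

/-- The uniform probability on the central cluster. -/
noncomputable def base : Measure Space := (volume D.X)⁻¹ • volume.restrict D.X

instance : IsProbabilityMeasure D.base := by
  constructor
  rw [base, Measure.smul_apply, Measure.restrict_apply_univ, smul_eq_mul,
    ENNReal.inv_mul_cancel (a := volume D.X) (Metric.measure_ball_pos volume 0 D.hδ).ne'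
      measure_ball_lt_top.ne]

theorem base_mem : ∀ᵐ x ∂D.base, x ∈ D.X :=
  Measure.ae_smul_measure (ae_restrict_mem D.measurableSet_X) _

/-- The images of a point of the central cluster on sheet `s`. -/
noncomputable def lift (s : Bool) : Measure Triple :=
  D.base.map (fun x => (x, D.T s x, D.S s x)) + D.base.map (fun x => (D.T s x, D.S s x, x)) +
    D.base.map (fun x => (D.S s x, x, D.T s x))

/-- The symmetrised coupling. -/
noncomputable def plan : Measure Triple := (6 : ℝ≥0∞)⁻¹ • (D.lift false + D.lift true)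

/-- The marginal. -/
noncomputable def mu : Measure Space := (6 : ℝ≥0∞)⁻¹ •
  ((D.base + D.base.map (D.T false) + D.base.map (D.S false)) +
    (D.base + D.base.map (D.T true) + D.base.map (D.S true)))

theorem plan_map {f : Triple → Space} (hf : Measurable f) :
    D.plan.map f = (6 : ℝ≥0∞)⁻¹ •
      ((D.base.map (fun x => f (x, D.T false x, D.S false x)) +
          D.base.map (fun x => f (D.T false x, D.S false x, x)) +
          D.base.map (fun x => f (D.S false x, x, D.T false x))) +
        (D.base.map (fun x => f (x, D.T true x, D.S true x)) +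
          D.base.map (fun x => f (D.T true x, D.S true x, x)) +
          D.base.map (fun x => f (D.S true x, x, D.T true x)))) := by
  have h1 : ∀ s, Measurable fun x => (x, D.T s x, D.S s x) :=
    fun s => measurable_id.prodMk ((D.mT s).prodMk (D.mS s))
  have h2 : ∀ s, Measurable fun x => (D.T s x, D.S s x, x) :=
    fun s => (D.mT s).prodMk ((D.mS s).prodMk measurable_id)
  have h3 : ∀ s, Measurable fun x => (D.S s x, x, D.T s x) :=
    fun s => (D.mS s).prodMk (measurable_id.prodMk (D.mT s))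
  simp only [plan, lift, Measure.map_smul, Measure.map_add _ _ hf, Measure.map_map hf (h1 _),
    Measure.map_map hf (h2 _), Measure.map_map hf (h3 _)]
  rfl

theorem plan_mem_couplings : D.plan ∈ Couplings D.mu := by
  refine ⟨?_, ?_, ?_⟩
  · rw [D.plan_map (by fun_prop)]; simp only [Measure.map_id']; rfl
  · rw [D.plan_map (by fun_prop)]; simp only [Measure.map_id']; unfold mu; congr 1; abel
  · rw [D.plan_map (by fun_prop)]; simp only [Measure.map_id']; unfold mu; congr 1; abel

theorem mu_apply {s : Set Space} (hs : MeasurableSet s) :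
    D.mu s = (6 : ℝ≥0∞)⁻¹ *
      ((D.base s + D.base (D.T false ⁻¹' s) + D.base (D.S false ⁻¹' s)) +
        (D.base s + D.base (D.T true ⁻¹' s) + D.base (D.S true ⁻¹' s))) := by
  simp [mu, Measure.map_apply, D.mT, D.mS, hs, mul_add]

instance : IsProbabilityMeasure D.mu := by
  constructor
  rw [D.mu_apply MeasurableSet.univ]
  simp only [Set.preimage_univ, measure_univ]
  rw [show ((1 : ℝ≥0∞) + 1 + 1) + (1 + 1 + 1) = 6 by norm_num]
  exact ENNReal.inv_mul_cancel (by norm_num) (by norm_num)

theorem base_ac : D.base ≪ volume :=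
  (Measure.absolutelyContinuous_restrict (μ := volume)).smul_left _

theorem map_ac {F G : Space → Space} {U : Set Space} (hF : Measurable F)
    (hG : DifferentiableOn ℝ G U) (h : ∀ x ∈ D.X, F x ∈ U ∧ G (F x) = x) :
    D.base.map F ≪ volume := by
  refine Measure.AbsolutelyContinuous.mk fun N hN h0 => ?_
  rw [Measure.map_apply hF hN, base, Measure.smul_apply, Measure.restrict_apply (hF hN)]
  have : F ⁻¹' N ∩ D.X ⊆ G '' (U ∩ N) :=
    fun x hx => ⟨F x, ⟨(h x hx.2).1, hx.1⟩, (h x hx.2).2⟩
  rw [measure_mono_null this (addHaar_image_eq_zero_of_differentiableOn_of_addHaar_eq_zero volume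
    (hG.mono Set.inter_subset_left) (measure_mono_null Set.inter_subset_right h0))]
  simp

theorem mu_ac : D.mu ≪ volume := by
  have hT : ∀ s, D.base.map (D.T s) ≪ volume := fun s =>
    D.map_ac (D.mT s) (D.dT' s) fun x hx => ⟨(D.memT s x hx).2, D.leftT s x hx⟩
  have hS : ∀ s, D.base.map (D.S s) ≪ volume := fun s =>
    D.map_ac (D.mS s) (D.dS' s) fun x hx => ⟨(D.memS s x hx).2, D.leftS s x hx⟩
  unfold mu
  refine Measure.AbsolutelyContinuous.smul_left ?_ _
  exact ((D.base_ac.add_left (hT false)).add_left (hS false)).add_left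
    ((D.base_ac.add_left (hT true)).add_left (hS true))

theorem measurableSet_Y (s : Bool) : MeasurableSet (D.Y s) := Metric.isOpen_ball.measurableSet

theorem measurableSet_W (s : Bool) : MeasurableSet (D.W s) := Metric.isOpen_ball.measurableSet

theorem measurableSet_Supp : MeasurableSet D.Supp := by
  have hZ : ∀ s, MeasurableSet (D.Z s) := fun s =>
    (D.measurableSet_W s).inter (((D.mS' s) D.measurableSet_X).inter
      (measurableSet_eq_fun ((D.mS s).comp (D.mS' s)) measurable_id))
  have : D.Supp = D.X ∪ ((D.Y false ∪ D.Z false) ∪ (D.Y true ∪ D.Z true)) := by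
    ext a; simp [Supp, or_assoc]
  rw [this]
  exact D.measurableSet_X.union
    (((D.measurableSet_Y _).union (hZ _)).union ((D.measurableSet_Y _).union (hZ _)))

theorem mu_supp : ∀ᵐ a ∂D.mu, a ∈ D.Supp := by
  refine Measure.ae_smul_measure ?_ _
  simp only [ae_add_measure_iff, ae_map_iff (p := fun a => a ∈ D.Supp) (D.mT _).aemeasurable D.measurableSet_Supp,
    ae_map_iff (p := fun a => a ∈ D.Supp) (D.mS _).aemeasurable D.measurableSet_Supp]
  refine ⟨⟨⟨?_, ?_⟩, ?_⟩, ⟨?_, ?_⟩, ?_⟩ <;> filter_upwards [D.base_mem] with x hx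
  · exact Or.inl hx
  · exact Or.inr ⟨_, Or.inl (D.T_mem hx)⟩
  · exact Or.inr ⟨_, Or.inr (D.S_mem hx)⟩
  · exact Or.inl hx
  · exact Or.inr ⟨_, Or.inl (D.T_mem hx)⟩
  · exact Or.inr ⟨_, Or.inr (D.S_mem hx)⟩

theorem lintegral_vpot_ne_top : ∫⁻ a, D.vpot a ∂D.mu ≠ ⊤ := by
  refine ne_top_of_le_ne_top (b := ∫⁻ _a, 4 ∂D.mu) (by simp) (lintegral_mono_ae ?_)
  filter_upwards [D.mu_supp] with a ha
  calc D.vpot a ≤ ENNReal.ofReal 4 := ENNReal.ofReal_le_ofReal (by linarith [(D.bd_supp ha).2])
    _ = 4 := ENNReal.ofReal_ofNat 4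

theorem lintegral_sum {α : Type} [MeasurableSpace α] {π : Measure α} {f g h : α → Space}
    (hf : Measurable f) (hg : Measurable g) (hh : Measurable h) (hf' : π.map f = D.mu)
    (hg' : π.map g = D.mu) (hh' : π.map h = D.mu) :
    ∫⁻ w, (D.vpot (f w) + D.vpot (g w) + D.vpot (h w)) ∂π = 3 * ∫⁻ a, D.vpot a ∂D.mu := by
  have hv := D.measurable_vpot
  have key : ∀ {k : α → Space}, Measurable k → π.map k = D.mu →
      ∫⁻ w, D.vpot (k w) ∂π = ∫⁻ a, D.vpot a ∂D.mu := by
    intro k hk hk'; rw [← hk', lintegral_map hv hk]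
  rw [lintegral_add_left (f := fun w => D.vpot (f w) + D.vpot (g w))
      ((hv.comp hf).add (hv.comp hg)),
    lintegral_add_left (f := fun w => D.vpot (f w)) (hv.comp hf),
    key hf hf', key hg hg', key hh hh']
  ring

theorem univ_of_map {α : Type} [MeasurableSpace α] {π : Measure α} {f : α → Space}
    (hf : Measurable f) (hf' : π.map f = D.mu) : π Set.univ = 1 := by
  have h : π.map f Set.univ = D.mu Set.univ := by rw [hf']
  rw [Measure.map_apply hf MeasurableSet.univ, Set.preimage_univ] at h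
  exact h.trans measure_univ

theorem plan_eq : ∀ᵐ w ∂D.plan,
    coulomb w.1 w.2.1 w.2.2 + 3 = D.vpot w.1 + D.vpot w.2.1 + D.vpot w.2.2 := by
  have hm : MeasurableSet {w : Triple |
      coulomb w.1 w.2.1 w.2.2 + 3 = D.vpot w.1 + D.vpot w.2.1 + D.vpot w.2.2} :=
    measurableSet_eq_fun (measurable_coulomb.add_const 3)
      (((D.measurable_vpot.comp (by fun_prop)).add (D.measurable_vpot.comp (by fun_prop))).add
        (D.measurable_vpot.comp (by fun_prop)))
  have m1 : ∀ s, Measurable fun x => (x, D.T s x, D.S s x) :=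
    fun s => measurable_id.prodMk ((D.mT s).prodMk (D.mS s))
  have m2 : ∀ s, Measurable fun x => (D.T s x, D.S s x, x) :=
    fun s => (D.mT s).prodMk ((D.mS s).prodMk measurable_id)
  have m3 : ∀ s, Measurable fun x => (D.S s x, x, D.T s x) :=
    fun s => (D.mS s).prodMk (measurable_id.prodMk (D.mT s))
  refine Measure.ae_smul_measure ?_ _
  simp only [lift, ae_add_measure_iff, ae_map_iff (m1 _).aemeasurable hm,
    ae_map_iff (m2 _).aemeasurable hm, ae_map_iff (m3 _).aemeasurable hm]
  refine ⟨⟨⟨?_, ?_⟩, ?_⟩, ⟨?_, ?_⟩, ?_⟩ <;> filter_upwards [D.base_mem] with x hx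
  · exact D.vpot_sheet hx
  · rw [coulomb_comm₂₃, coulomb_comm₁₂, D.vpot_sheet hx]; ring
  · rw [coulomb_comm₁₂, coulomb_comm₂₃, D.vpot_sheet hx]; ring
  · exact D.vpot_sheet hx
  · rw [coulomb_comm₂₃, coulomb_comm₁₂, D.vpot_sheet hx]; ring
  · rw [coulomb_comm₁₂, coulomb_comm₂₃, D.vpot_sheet hx]; ring

theorem lower_bound {π : Measure Triple} (hπ : π ∈ Couplings D.mu) :
    3 * ∫⁻ a, D.vpot a ∂D.mu ≤ ∫⁻ w, coulomb w.1 w.2.1 w.2.2 ∂π + 3 := by
  obtain ⟨h1, h2, h3⟩ := hπ
  rw [← D.lintegral_sum (π := π) (by fun_prop) (by fun_prop) (by fun_prop) h1 h2 h3]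
  have hm1 : ∀ᵐ w ∂π, w.1 ∈ D.Supp := ae_of_ae_map (by fun_prop) (h1 ▸ D.mu_supp)
  have hm2 : ∀ᵐ w ∂π, w.2.1 ∈ D.Supp := ae_of_ae_map (by fun_prop) (h2 ▸ D.mu_supp)
  have hm3 : ∀ᵐ w ∂π, w.2.2 ∈ D.Supp := ae_of_ae_map (by fun_prop) (h3 ▸ D.mu_supp)
  calc _ ≤ ∫⁻ w, (coulomb w.1 w.2.1 w.2.2 + 3) ∂π := by
          apply lintegral_mono_ae
          filter_upwards [hm1, hm2, hm3] with w a b c using (D.vpot_sum a b c).1
    _ = _ := by
          rw [lintegral_add_right _ measurable_const, lintegral_const,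
            D.univ_of_map (by fun_prop) h1, mul_one]

theorem plan_cost :
    ∫⁻ w, coulomb w.1 w.2.1 w.2.2 ∂D.plan + 3 = 3 * ∫⁻ a, D.vpot a ∂D.mu := by
  obtain ⟨h1, h2, h3⟩ := D.plan_mem_couplings
  rw [← D.lintegral_sum (π := D.plan) (by fun_prop) (by fun_prop) (by fun_prop) h1 h2 h3,
    ← lintegral_congr_ae D.plan_eq, lintegral_add_right _ measurable_const, lintegral_const,
    D.univ_of_map (by fun_prop) h1, mul_one]

theorem kantorovich_eq :
    kantorovich D.mu + 3 = 3 * ∫⁻ a, D.vpot a ∂D.mu := by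
  rw [← D.plan_cost]
  congr 1
  apply le_antisymm (iInf₂_le _ D.plan_mem_couplings)
  refine le_iInf₂ fun π hπ => ?_
  have := D.lower_bound hπ
  rw [← D.plan_cost] at this
  exact (ENNReal.add_le_add_iff_right (by norm_num)).1 this

theorem kantorovich_lt_top : kantorovich D.mu < ⊤ := by
  refine lt_of_le_of_lt (le_self_add (b := 3)) ?_
  rw [D.kantorovich_eq]
  exact ENNReal.mul_lt_top (by norm_num) D.lintegral_vpot_ne_top.lt_top

/-- A Monge plan of cost at most the Kantorovich value lives on permuted sheet triples. -/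
theorem monge_good {T₂ T₃ : Space → Space} (m2 : Measurable T₂) (m3 : Measurable T₃)
    (h2 : D.mu.map T₂ = D.mu) (h3 : D.mu.map T₃ = D.mu)
    (hle : mongeCost D.mu T₂ T₃ ≤ kantorovich D.mu) :
    ∀ᵐ x ∂D.mu, D.Good x (T₂ x) (T₃ x) := by
  have s2 : ∀ᵐ x ∂D.mu, T₂ x ∈ D.Supp := ae_of_ae_map m2.aemeasurable (h2.symm ▸ D.mu_supp)
  have s3 : ∀ᵐ x ∂D.mu, T₃ x ∈ D.Supp := ae_of_ae_map m3.aemeasurable (h3.symm ▸ D.mu_supp)
  have hle' : (fun x => D.vpot x + D.vpot (T₂ x) + D.vpot (T₃ x)) ≤ᵐ[D.mu]
      fun x => coulomb x (T₂ x) (T₃ x) + 3 := by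
    filter_upwards [D.mu_supp, s2, s3] with x a b c using (D.vpot_sum a b c).1
  have hint := D.lintegral_sum (π := D.mu) (f := id) measurable_id m2 m3 Measure.map_id h2 h3
  simp only [id_eq] at hint
  have hm : Measurable fun x => coulomb x (T₂ x) (T₃ x) + 3 :=
    (measurable_coulomb.comp (measurable_id.prodMk (m2.prodMk m3))).add_const 3
  have hge : ∫⁻ x, (coulomb x (T₂ x) (T₃ x) + 3) ∂D.mu ≤
      ∫⁻ x, (D.vpot x + D.vpot (T₂ x) + D.vpot (T₃ x)) ∂D.mu := by
    rw [hint, ← D.kantorovich_eq, lintegral_add_right _ measurable_const, lintegral_const,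
      measure_univ, mul_one]
    exact add_le_add_left hle 3
  have heq := ae_eq_of_ae_le_of_lintegral_le hle'
    (by rw [hint]; exact ENNReal.mul_ne_top (by norm_num) D.lintegral_vpot_ne_top)
    hm.aemeasurable hge
  filter_upwards [D.mu_supp, s2, s3, heq] with x a b c h using (D.vpot_sum a b c).2 h

theorem base_congr {A B : Set Space} (h : ∀ x ∈ D.X, x ∈ A ↔ x ∈ B) : D.base A = D.base B :=
  measure_congr (Filter.eventuallyEq_set.2 (D.base_mem.mono h))

theorem base_zero {A : Set Space} (h : ∀ x ∈ D.X, x ∉ A) : D.base A = 0 := by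
  rw [D.base_congr (B := ∅) (fun x hx => by simp [h x hx]), measure_empty]

theorem mu_sheetT {C : Set Space} (hC : MeasurableSet C) :
    D.mu (D.Y false ∩ D.T' false ⁻¹' C) = (6 : ℝ≥0∞)⁻¹ * D.base C := by
  have h0 : D.base (D.Y false ∩ D.T' false ⁻¹' C) = 0 :=
    D.base_zero fun x hx h => (D.X_not_Y hx false).1 h.1
  have h1 : D.base (D.T false ⁻¹' (D.Y false ∩ D.T' false ⁻¹' C)) = D.base C := by
    refine D.base_congr fun x hx => ?_
    rw [Set.mem_preimage, Set.mem_inter_iff, Set.mem_preimage, D.leftT false x hx]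
    exact and_iff_right (D.T_mem hx)
  have h2 : D.base (D.S false ⁻¹' (D.Y false ∩ D.T' false ⁻¹' C)) = 0 :=
    D.base_zero fun x hx h => D.Y_not_W h.1 (D.S_mem hx).1
  have h3 : D.base (D.T true ⁻¹' (D.Y false ∩ D.T' false ⁻¹' C)) = 0 :=
    D.base_zero fun x hx h => by
      have hn := (D.Y_not_other (s := true) (D.T_mem hx)).1
      rw [Bool.not_true] at hn
      exact hn h.1
  have h4 : D.base (D.S true ⁻¹' (D.Y false ∩ D.T' false ⁻¹' C)) = 0 :=
    D.base_zero fun x hx h => by
      have hn := (D.W_not_other (s := true) (D.S_mem hx).1).1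
      rw [Bool.not_true] at hn
      exact hn h.1
  rw [D.mu_apply ((D.measurableSet_Y false).inter (D.mT' false hC)), h0, h1, h2, h3, h4]
  simp

theorem mu_sheetS {C : Set Space} (hC : MeasurableSet C) :
    D.mu (D.W false ∩ D.S' false ⁻¹' C) = (6 : ℝ≥0∞)⁻¹ * D.base C := by
  have h0 : D.base (D.W false ∩ D.S' false ⁻¹' C) = 0 :=
    D.base_zero fun x hx h => (D.X_not_Y hx false).2 h.1
  have h1 : D.base (D.T false ⁻¹' (D.W false ∩ D.S' false ⁻¹' C)) = 0 :=
    D.base_zero fun x hx h => D.Y_not_W (D.T_mem hx) h.1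
  have h2 : D.base (D.S false ⁻¹' (D.W false ∩ D.S' false ⁻¹' C)) = D.base C := by
    refine D.base_congr fun x hx => ?_
    rw [Set.mem_preimage, Set.mem_inter_iff, Set.mem_preimage, D.leftS false x hx]
    exact and_iff_right (D.S_mem hx).1
  have h3 : D.base (D.T true ⁻¹' (D.W false ∩ D.S' false ⁻¹' C)) = 0 :=
    D.base_zero fun x hx h => by
      have hn := (D.Y_not_other (s := true) (D.T_mem hx)).2
      rw [Bool.not_true] at hn
      exact hn h.1
  have h4 : D.base (D.S true ⁻¹' (D.W false ∩ D.S' false ⁻¹' C)) = 0 :=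
    D.base_zero fun x hx h => by
      have hn := (D.W_not_other (s := true) (D.S_mem hx).1).2
      rw [Bool.not_true] at hn
      exact hn h.1
  rw [D.mu_apply ((D.measurableSet_W false).inter (D.mS' false hC)), h0, h1, h2, h3, h4]
  simp

/-- No Monge plan reaches the Kantorovich value. -/
theorem monge_strict {T₂ T₃ : Space → Space} (m2 : Measurable T₂) (m3 : Measurable T₃)
    (h2 : D.mu.map T₂ = D.mu) (h3 : D.mu.map T₃ = D.mu) :
    kantorovich D.mu < mongeCost D.mu T₂ T₃ := by
  classical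
  by_contra hcon
  have hgood := D.monge_good m2 m3 h2 h3 (not_lt.1 hcon)
  let A : Set Space := D.X ∩ T₂ ⁻¹' (D.Y false ∪ D.W false)
  have hA : MeasurableSet A := D.measurableSet_X.inter (m2 ((D.measurableSet_Y _).union (D.measurableSet_W _)))
  have key : ∀ C : Set Space, MeasurableSet C → C ⊆ D.X →
      D.mu (C ∩ A) = (6 : ℝ≥0∞)⁻¹ * D.base C := by
    intro C hC hCX
    let P : Set Space := D.Y false ∩ D.T' false ⁻¹' C
    let Q : Set Space := D.W false ∩ D.S' false ⁻¹' C
    have hP : MeasurableSet P := (D.measurableSet_Y false).inter (D.mT' false hC)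
    have hQ : MeasurableSet Q := (D.measurableSet_W false).inter (D.mS' false hC)
    have muP : D.mu P = (6 : ℝ≥0∞)⁻¹ * D.base C := D.mu_sheetT hC
    have muQ : D.mu Q = (6 : ℝ≥0∞)⁻¹ * D.base C := D.mu_sheetS hC
    let one : Space → ℝ≥0∞ := fun _ => 1
    have hid : ∀ᵐ x ∂D.mu, P.indicator one x + P.indicator one (T₂ x) + P.indicator one (T₃ x)
        = (C ∩ A).indicator one x + P.indicator one x + Q.indicator one x := by
      filter_upwards [hgood] with x hx
      obtain ⟨s, z, hz, hperm⟩ := hx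
      have zY : ∀ t, z ∉ D.Y t ∧ z ∉ D.W t := fun t => D.X_not_Y hz t
      have TX : D.T s z ∉ D.X := fun h => (D.X_not_Y h s).1 (D.T_mem hz)
      have SX : D.S s z ∉ D.X := fun h => (D.X_not_Y h s).2 (D.S_mem hz).1
      have TC : D.T s z ∉ C := fun h => TX (hCX h)
      have SC : D.S s z ∉ C := fun h => SX (hCX h)
      cases s
      · have hT : D.T false z ∈ D.Y false := D.T_mem hz
        have hS : D.S false z ∈ D.W false := (D.S_mem hz).1
        have hTW : D.T false z ∉ D.W false := D.Y_not_W hT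
        have hSY : D.S false z ∉ D.Y false := fun h => D.Y_not_W h hS
        have lT := D.leftT false z hz
        have lS := D.leftS false z hz
        by_cases hzC : z ∈ C <;>
        rcases hperm with ⟨h, h', h''⟩ | ⟨h, h', h''⟩ | ⟨h, h', h''⟩ | ⟨h, h', h''⟩ |
          ⟨h, h', h''⟩ | ⟨h, h', h''⟩ <;>
        subst h <;>
        simp [P, Q, A, one, Set.indicator_apply, h', h'', hz, hzC, zY, hT, hS, hTW, hSY,
          lT, lS, TX, SX, TC, SC]
      · have hT := D.Y_not_other (D.T_mem (s := true) hz)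
        have hS := D.W_not_other (D.S_mem (s := true) hz).1
        rcases hperm with ⟨h, h', h''⟩ | ⟨h, h', h''⟩ | ⟨h, h', h''⟩ | ⟨h, h', h''⟩ |
          ⟨h, h', h''⟩ | ⟨h, h', h''⟩ <;>
        simp_all [P, Q, A, one, Set.indicator_apply]
    have hi : ∀ {B : Set Space}, MeasurableSet B → Measurable (B.indicator one) :=
      fun hB => measurable_const.indicator hB
    have int : ∀ {B : Set Space}, MeasurableSet B → ∫⁻ x, B.indicator one x ∂D.mu = D.mu B :=
      fun hB => lintegral_indicator_one hB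
    have int' : ∀ {B : Set Space} {F : Space → Space}, MeasurableSet B → Measurable F →
        D.mu.map F = D.mu → ∫⁻ x, B.indicator one (F x) ∂D.mu = D.mu B := by
      intro B F hB hF hF'
      rw [← lintegral_map (hi hB) hF, hF', int hB]
    have hsum := lintegral_congr_ae hid
    rw [lintegral_add_left (f := fun x => P.indicator one x + P.indicator one (T₂ x))
        ((hi hP).add ((hi hP).comp m2)),
      lintegral_add_left (f := fun x => P.indicator one x) (hi hP),
      lintegral_add_left (f := fun x => (C ∩ A).indicator one x + P.indicator one x)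
        ((hi (hC.inter hA)).add (hi hP)),
      lintegral_add_left (f := fun x => (C ∩ A).indicator one x) (hi (hC.inter hA)), int hP, int' hP m2 h2, int' hP m3 h3,
      int (hC.inter hA), int hQ, muQ, muP] at hsum
    have hfin : (6 : ℝ≥0∞)⁻¹ * D.base C ≠ ⊤ := muP ▸ measure_ne_top _ _
    rw [ENNReal.add_left_inj hfin, ENNReal.add_left_inj hfin] at hsum
    exact hsum.symm
  have muA : ∀ C : Set Space, MeasurableSet C → C ⊆ D.X →
      D.mu C = (6 : ℝ≥0∞)⁻¹ * (D.base C + D.base C) := by
    intro C hC hCX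
    have hT : ∀ s, D.base (D.T s ⁻¹' C) = 0 := fun s =>
      D.base_zero fun x hx h => (D.X_not_Y (hCX h) s).1 (D.T_mem hx)
    have hS : ∀ s, D.base (D.S s ⁻¹' C) = 0 := fun s =>
      D.base_zero fun x hx h => (D.X_not_Y (hCX h) s).2 (D.S_mem hx).1
    rw [D.mu_apply hC, hT, hT, hS, hS]
    simp
  have eA := key A hA Set.inter_subset_left
  rw [Set.inter_self, muA A hA Set.inter_subset_left,
    ENNReal.mul_right_inj (by norm_num) (by norm_num)] at eA
  have h0 : D.base A = 0 := by
    by_contra hne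
    exact hne ((ENNReal.add_left_inj (measure_ne_top D.base A)).1 (eA.trans (zero_add _).symm))
  have eX := key D.X D.measurableSet_X subset_rfl
  rw [Set.inter_eq_right.2 Set.inter_subset_left, muA A hA Set.inter_subset_left, h0,
    D.base_congr (A := D.X) (B := Set.univ) (fun x hx => by simp [hx]), measure_univ] at eX
  simp at eX
  exact absurd eX.symm (ENNReal.inv_ne_zero.2 (by norm_num))

end Setup

end Vale.Agent.P121
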