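import Vale.Agent.P121.Coulomb
import Mathlib.Analysis.InnerProductSpace.Calculus
import Mathlib.Analysis.Normed.Module.FiniteDimension
import Mathlib.Analysis.Calculus.InverseFunctionTheorem.ContDiff
import Mathlib.Analysis.SpecialFunctions.Sqrt
import Mathlib.MeasureTheory.Function.Jacobian

/-!
One sheet of contact triples near `(0, e, -e)`, built with the inverse function theorem.
-/

open Filter Topology MeasureTheory
open scoped RealInnerProductSpace

namespace Vale.Agent.P121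

/-- Triples of points. -/
abbrev Triple : Type := Space × Space × Space

/-- The gradient of `v ↦ ‖v‖⁻¹`. -/
noncomputable def grad (v : Space) : Space := -((‖v‖ ^ 3)⁻¹) • v

/-- The left inverse of `grad`. -/
noncomputable def gradInv (w : Space) : Space :=
  -((Real.sqrt ‖w‖ * ‖w‖)⁻¹) • w

theorem grad_neg (v : Space) : grad (-v) = -grad v := by
  simp [grad]

theorem contDiffAt_grad {v : Space} (hv : v ≠ 0) : ContDiffAt ℝ 1 grad v := by
  have h : ‖v‖ ^ 3 ≠ 0 := pow_ne_zero 3 (norm_ne_zero_iff.2 hv)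
  exact ((((contDiffAt_norm ℝ hv).pow 3).inv h).neg).smul contDiffAt_id

theorem gradInv_grad {v : Space} (hv : v ≠ 0) : gradInv (grad v) = v := by
  have ha : 0 < ‖v‖ := norm_pos_iff.2 hv
  have hn : ‖grad v‖ = (‖v‖ ^ 2)⁻¹ := by
    rw [grad, norm_smul, norm_neg, norm_inv, norm_pow, norm_norm]
    field_simp
  rw [gradInv, hn, grad, smul_smul, Real.sqrt_inv, Real.sqrt_sq ha.le]
  have : -(‖v‖⁻¹ * (‖v‖ ^ 2)⁻¹)⁻¹ * -(‖v‖ ^ 3)⁻¹ = 1 := by
    field_simp
  rw [this, one_smul]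

theorem grad_fderiv_injective {v : Space} (hv : v ≠ 0) :
    Function.Injective (fderiv ℝ grad v) := by
  have hg : HasFDerivAt grad (fderiv ℝ grad v) v :=
    ((contDiffAt_grad hv).differentiableAt one_ne_zero).hasFDerivAt
  have hne : ‖grad v‖ ≠ 0 := by
    intro h
    have h0 : grad v = 0 := norm_eq_zero.1 h
    have := gradInv_grad hv
    rw [h0] at this
    simp [gradInv] at this
    exact hv this.symm
  have hi : DifferentiableAt ℝ gradInv (grad v) := by
    have h1 : DifferentiableAt ℝ (fun w : Space => ‖w‖) (grad v) :=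
      (contDiffAt_norm ℝ (norm_ne_zero_iff.1 hne) (n := 1)).differentiableAt one_ne_zero
    have h2 : DifferentiableAt ℝ (fun w : Space => Real.sqrt ‖w‖ * ‖w‖) (grad v) :=
      (h1.sqrt hne).mul h1
    have h3 : Real.sqrt ‖grad v‖ * ‖grad v‖ ≠ 0 :=
      mul_ne_zero (Real.sqrt_ne_zero'.2 (lt_of_le_of_ne (norm_nonneg _) (Ne.symm hne))) hne
    exact ((h2.inv h3).neg).smul differentiableAt_id
  have hc := hi.hasFDerivAt.comp v hg
  have hid : HasFDerivAt (gradInv ∘ grad) (ContinuousLinearMap.id ℝ Space) v := by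
    refine (hasFDerivAt_id v).congr_of_eventuallyEq ?_
    filter_upwards [isOpen_ne.mem_nhds hv] with w hw using gradInv_grad hw
  have he := hc.unique hid
  intro a b hab
  have := congrArg (fun L : Space →L[ℝ] Space => L a) he
  have hb := congrArg (fun L : Space →L[ℝ] Space => L b) he
  simp [hab] at this hb
  rw [← this, hb]

/-- Elementary lower bound for the inverse norm. -/
theorem inv_norm_lower (v h : Space) (hv : v ≠ 0) (hvh : v + h ≠ 0) :
    ‖v‖⁻¹ + ⟪grad v, h⟫ - ‖h‖ ^ 2 / (2 * ‖v‖ ^ 3) ≤ ‖v + h‖⁻¹ := by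
  have ha : 0 < ‖v‖ := norm_pos_iff.2 hv
  have hb : 0 < ‖v + h‖ := norm_pos_iff.2 hvh
  have hsq := norm_add_sq_real v h
  rw [grad, real_inner_smul_left]
  have hi : ⟪v, h⟫ = (‖v + h‖ ^ 2 - ‖v‖ ^ 2 - ‖h‖ ^ 2) / 2 := by linarith
  rw [hi]
  set a := ‖v‖
  set b := ‖v + h‖
  have key : b⁻¹ - (a⁻¹ + -(a ^ 3)⁻¹ * ((b ^ 2 - a ^ 2 - ‖h‖ ^ 2) / 2) - ‖h‖ ^ 2 / (2 * a ^ 3))
      = ((a - b) ^ 2 * (2 * a + b)) / (2 * a ^ 3 * b) := by
    field_simp
    ring
  have : 0 ≤ ((a - b) ^ 2 * (2 * a + b)) / (2 * a ^ 3 * b) := by positivity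
  linarith

/-- Real Coulomb interaction. -/
noncomputable def realCost (x y z : Space) : ℝ := ‖x - y‖⁻¹ + ‖x - z‖⁻¹ + ‖y - z‖⁻¹

/-- Potential near the origin. -/
noncomputable def potX (K : ℝ) (x : Space) : ℝ := 5 / 2 - K / 2 * ‖x‖ ^ 2

/-- Potential near `e`. -/
noncomputable def potY (K : ℝ) (e y : Space) : ℝ :=
  -(5 / 4) * ⟪e, y - e⟫ - K / 2 * ‖y - e‖ ^ 2

/-- The function minimized over `x`, `y` to give the potential near `-e`. -/
noncomputable def excess (K : ℝ) (e x y z : Space) : ℝ :=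
  realCost x y z - potX K x - potY K e y

/-- The two critical point equations. -/
noncomputable def crit (K : ℝ) (e : Space) (w : Triple) : Space × Space :=
  (grad (w.1 - w.2.1) + grad (w.1 - w.2.2) + K • w.1,
   grad (w.2.1 - w.1) + grad (w.2.1 - w.2.2) + (5 / 4 : ℝ) • e + K • (w.2.1 - e))

/-- At a critical point the excess is strictly minimal over all `x'`, `y'`. -/
theorem excess_lt {K : ℝ} (hK : 30 ≤ K) {e x y z x' y' : Space}
    (hxy : 1 / 2 ≤ ‖x - y‖) (hxz : 1 / 2 ≤ ‖x - z‖) (hyz : 1 / 2 ≤ ‖y - z‖)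
    (hc : crit K e (x, y, z) = 0) (hxy' : x' ≠ y') (hxz' : x' ≠ z) (hyz' : y' ≠ z)
    (hne : x' ≠ x ∨ y' ≠ y) : excess K e x y z < excess K e x' y' z := by
  obtain ⟨a, rfl⟩ : ∃ a, x' = x + a := ⟨x' - x, by abel⟩
  obtain ⟨b, rfl⟩ : ∃ b, y' = y + b := ⟨y' - y, by abel⟩
  have pos : ∀ {v : Space}, (1 / 2 : ℝ) ≤ ‖v‖ → v ≠ 0 := by
    intro v hv h; rw [h, norm_zero] at hv; linarith
  have e1 : x + a - (y + b) = (x - y) + (a - b) := by abel
  have e2 : x + a - z = (x - z) + a := by abel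
  have e3 : y + b - z = (y - z) + b := by abel
  have q : ∀ v h : Space, (1 / 2 : ℝ) ≤ ‖v‖ → ‖h‖ ^ 2 / (2 * ‖v‖ ^ 3) ≤ 4 * ‖h‖ ^ 2 := by
    intro v h hv
    have : (1 / 2 : ℝ) ^ 3 ≤ ‖v‖ ^ 3 := pow_le_pow_left₀ (by norm_num) hv 3
    rw [div_le_iff₀ (by linarith)]
    nlinarith [sq_nonneg ‖h‖, mul_le_mul_of_nonneg_left this (sq_nonneg ‖h‖)]
  have l1 := inv_norm_lower (x - y) (a - b) (pos hxy) (e1 ▸ sub_ne_zero.2 hxy')
  have l2 := inv_norm_lower (x - z) a (pos hxz) (e2 ▸ sub_ne_zero.2 hxz')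
  have l3 := inv_norm_lower (y - z) b (pos hyz) (e3 ▸ sub_ne_zero.2 hyz')
  have q1 := q (x - y) (a - b) hxy
  have q2 := q (x - z) a hxz
  have q3 := q (y - z) b hyz
  have hab : ‖a - b‖ ^ 2 ≤ 2 * (‖a‖ ^ 2 + ‖b‖ ^ 2) := by
    have := parallelogram_law_with_norm ℝ a b
    nlinarith [mul_self_nonneg ‖a + b‖, sq_nonneg ‖a + b‖]
  have hpos : 0 < ‖a‖ ^ 2 + ‖b‖ ^ 2 := by
    rcases hne with h | h
    · have : a ≠ 0 := fun ha => h (by rw [ha, add_zero])
      have := norm_pos_iff.2 this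
      positivity
    · have : b ≠ 0 := fun hb => h (by rw [hb, add_zero])
      have := norm_pos_iff.2 this
      positivity
  have c1 : ⟪grad (x - y) + grad (x - z) + K • x, a⟫ = 0 := by
    have := congrArg Prod.fst hc
    simp only [crit, Prod.fst_zero] at this
    rw [this, inner_zero_left]
  have c2 : ⟪grad (y - x) + grad (y - z) + (5 / 4 : ℝ) • e + K • (y - e), b⟫ = 0 := by
    have := congrArg Prod.snd hc
    simp only [crit, Prod.snd_zero] at this
    rw [this, inner_zero_left]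
  have hflip : grad (y - x) = -grad (x - y) := by rw [← neg_sub x y, grad_neg]
  simp only [hflip, inner_add_left, inner_neg_left, real_inner_smul_left] at c1 c2
  rw [inner_sub_right] at l1
  have n1 := norm_add_sq_real x a
  have n2 : ‖y + b - e‖ ^ 2 = ‖y - e‖ ^ 2 + 2 * ⟪y - e, b⟫ + ‖b‖ ^ 2 := by
    rw [show y + b - e = (y - e) + b by abel]; exact norm_add_sq_real _ _
  have n3 : ⟪e, y + b - e⟫ = ⟪e, y - e⟫ + ⟪e, b⟫ := by
    rw [show y + b - e = (y - e) + b by abel, inner_add_right]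
  unfold excess realCost potX potY
  rw [e1, e2, e3, n1, n2, n3]
  nlinarith

/-- A local inverse of a continuously differentiable map with injective derivative. -/
theorem exists_local_inverse {f : Triple → Triple} {L : Triple →L[ℝ] Triple} {a : Triple}
    (hf : ContDiffAt ℝ 1 f a) (hL : HasFDerivAt f L a) (hinj : Function.Injective L) :
    ∃ g : Triple → Triple, g (f a) = a ∧ (∀ᶠ w in 𝓝 a, g (f w) = w) ∧
      (∀ᶠ v in 𝓝 (f a), f (g v) = v) ∧ (∀ᶠ v in 𝓝 (f a), DifferentiableAt ℝ g v) := by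
  let e : Triple ≃L[ℝ] Triple :=
    (LinearEquiv.ofInjectiveEndo (L : Triple →ₗ[ℝ] Triple) hinj).toContinuousLinearEquiv
  have he : (e : Triple →L[ℝ] Triple) = L := by
    ext w <;> simp [e]
  have hd : HasFDerivAt f (e : Triple →L[ℝ] Triple) a := he.symm ▸ hL
  have hs := hf.hasStrictFDerivAt' hd one_ne_zero
  refine ⟨hs.localInverse f e a, hs.localInverse_apply_image, hs.eventually_left_inverse,
    hs.eventually_right_inverse, ?_⟩
  have h2 : ContDiffAt ℝ 1 (hs.localInverse f e a) (f a) := hf.to_localInverse hd one_ne_zero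
  filter_upwards [h2.eventually (by simp)] with v hv using hv.differentiableAt one_ne_zero

/-- The derivative of `crit K e` at the base triple. -/
noncomputable def dcrit (A A' C : Space →L[ℝ] Space) (K : ℝ) :
    Triple →L[ℝ] Space × Space :=
  ContinuousLinearMap.prod
    (    A.comp (ContinuousLinearMap.fst ℝ _ _ -
        (ContinuousLinearMap.fst ℝ _ _).comp (ContinuousLinearMap.snd ℝ Space (Space × Space))) +
      A'.comp (ContinuousLinearMap.fst ℝ _ _ -
        (ContinuousLinearMap.snd ℝ _ _).comp (ContinuousLinearMap.snd ℝ Space (Space × Space))) +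
      K • ContinuousLinearMap.fst ℝ Space (Space × Space))
    (    A'.comp ((ContinuousLinearMap.fst ℝ _ _).comp
        (ContinuousLinearMap.snd ℝ Space (Space × Space)) - ContinuousLinearMap.fst ℝ _ _) +
      C.comp ((ContinuousLinearMap.fst ℝ _ _).comp
          (ContinuousLinearMap.snd ℝ Space (Space × Space)) -
        (ContinuousLinearMap.snd ℝ _ _).comp (ContinuousLinearMap.snd ℝ Space (Space × Space))) +
      K • (ContinuousLinearMap.fst ℝ _ _).comp (ContinuousLinearMap.snd ℝ Space (Space × Space)))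

theorem dcrit_eq_zero {A A' C : Space →L[ℝ] Space} {K : ℝ} {u v w : Space}
    (h : dcrit A A' C K (u, v, w) = 0) :
    A (u - v) + A' (u - w) + K • u = 0 ∧ A' (v - u) + C (v - w) + K • v = 0 := by
  simpa [dcrit, Prod.ext_iff] using h

/-- The three parametrizations have injective derivative for large `K`. -/
theorem exists_dcrit_injective {e : Space} (he0 : e ≠ 0) (h2e : e + e ≠ 0) :
    ∃ K₀ : ℝ, ∀ K, K₀ ≤ K → ∀ u v w : Space,
      dcrit (fderiv ℝ grad (-e)) (fderiv ℝ grad e) (fderiv ℝ grad (e + e)) K (u, v, w) = 0 →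
      (u = 0 ∨ v = 0 ∨ w = 0) → (u, v, w) = 0 := by
  let A := fderiv ℝ grad (-e)
  let A' := fderiv ℝ grad e
  let C := fderiv ℝ grad (e + e)
  obtain ⟨β, -, hβ⟩ := LinearMap.exists_antilipschitzWith (A' : Space →ₗ[ℝ] Space)
    (LinearMap.ker_eq_bot.2 (grad_fderiv_injective he0))
  obtain ⟨γ, -, hγ⟩ := LinearMap.exists_antilipschitzWith (C : Space →ₗ[ℝ] Space)
    (LinearMap.ker_eq_bot.2 (grad_fderiv_injective h2e))
  let M : ℝ := ‖A‖ + ‖A'‖ + ‖C‖ + 1
  let P : ℝ := (β : ℝ) + γ + 1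
  refine ⟨8 * M * M * P + 8 * M, fun K hK u v w h hor => ?_⟩
  have hM : M = ‖A‖ + ‖A'‖ + ‖C‖ + 1 := rfl
  have hP : P = (β : ℝ) + γ + 1 := rfl
  have hKpos : ∀ (u : Space) (s : ℝ), K * ‖u‖ ≤ s * ‖u‖ → s < K → u = 0 := by
    intro u s h hs
    rcases (norm_nonneg u).eq_or_lt' with h0 | h0
    · exact norm_eq_zero.1 h0
    · nlinarith
  have hM1 : 1 ≤ M := by rw [hM]; linarith [norm_nonneg A, norm_nonneg A', norm_nonneg C]
  have hP1 : 1 ≤ P := by rw [hP]; linarith [β.coe_nonneg, γ.coe_nonneg]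
  have bA : ∀ u : Space, ‖A u‖ ≤ M * ‖u‖ := fun u => (A.le_opNorm u).trans
    (by gcongr; rw [hM]; linarith [norm_nonneg A', norm_nonneg C])
  have bA' : ∀ u : Space, ‖A' u‖ ≤ M * ‖u‖ := fun u => (A'.le_opNorm u).trans
    (by gcongr; rw [hM]; linarith [norm_nonneg A, norm_nonneg C])
  have bC : ∀ u : Space, ‖C u‖ ≤ M * ‖u‖ := fun u => (C.le_opNorm u).trans
    (by gcongr; rw [hM]; linarith [norm_nonneg A, norm_nonneg A'])
  have iA' : ∀ u : Space, ‖u‖ ≤ P * ‖A' u‖ := fun u =>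
    ((hβ.le_mul_norm (map_zero _)) u).trans
      (mul_le_mul_of_nonneg_right (by rw [hP]; linarith [γ.coe_nonneg]) (norm_nonneg _))
  have iC : ∀ u : Space, ‖u‖ ≤ P * ‖C u‖ := fun u =>
    ((hγ.le_mul_norm (map_zero _)) u).trans
      (mul_le_mul_of_nonneg_right (by rw [hP]; linarith [β.coe_nonneg]) (norm_nonneg _))
  have hbig : 8 * M ≤ 8 * M * M * P + 8 * M := by nlinarith [mul_pos (mul_pos (zero_lt_one.trans_le hM1) (zero_lt_one.trans_le hM1)) (zero_lt_one.trans_le hP1)]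
  have hMP : M ≤ M * M * P := by nlinarith [mul_le_mul hM1 hP1 zero_le_one (by linarith)]
  have hKp : 0 < K := by linarith
  have nK : ∀ u : Space, ‖K • u‖ = K * ‖u‖ := fun u => by
    rw [norm_smul, Real.norm_eq_abs, abs_of_pos hKp]
  have hz : ∀ {p q r : Space}, p + q + r = 0 → ‖r‖ ≤ ‖p‖ + ‖q‖ := by
    intro p q r h
    rw [eq_neg_of_add_eq_zero_right h, norm_neg]; exact norm_add_le _ _
  obtain ⟨p, q⟩ := dcrit_eq_zero (A := A) (A' := A') (C := C) h
  rcases hor with rfl | rfl | rfl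
  · simp only [zero_sub, map_neg, smul_zero, add_zero, sub_zero] at p q
    have hw : ‖w‖ ≤ P * M * ‖v‖ := by
      have : A' w = -A v := by linear_combination (norm := module) -p
      calc ‖w‖ ≤ P * ‖A' w‖ := iA' w
        _ = P * ‖A v‖ := by rw [this, norm_neg]
        _ ≤ P * (M * ‖v‖) := mul_le_mul_of_nonneg_left (bA v) (by linarith)
        _ = P * M * ‖v‖ := by ring
    have hv : K * ‖v‖ ≤ (2 * M + M * (P * M)) * ‖v‖ := by
      have := hz q
      rw [nK] at this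
      nlinarith [bA' v, bC (v - w), mul_le_mul_of_nonneg_left
        ((norm_sub_le v w).trans (add_le_add le_rfl hw)) (zero_le_one.trans hM1)]
    have v0 := hKpos v _ hv (by nlinarith)
    subst v0
    simp only [norm_zero, mul_zero] at hw
    simp [norm_le_zero_iff.1 hw]
  · simp only [zero_sub, map_neg, smul_zero, add_zero, sub_zero] at p q
    have hw : ‖w‖ ≤ P * M * ‖u‖ := by
      have : C w = -A' u := by linear_combination (norm := module) -q
      calc ‖w‖ ≤ P * ‖C w‖ := iC w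
        _ = P * ‖A' u‖ := by rw [this, norm_neg]
        _ ≤ P * (M * ‖u‖) := mul_le_mul_of_nonneg_left (bA' u) (by linarith)
        _ = P * M * ‖u‖ := by ring
    have hu : K * ‖u‖ ≤ (2 * M + M * (P * M)) * ‖u‖ := by
      have := hz p
      rw [nK] at this
      nlinarith [bA u, bA' (u - w), mul_le_mul_of_nonneg_left
        ((norm_sub_le u w).trans (add_le_add le_rfl hw)) (zero_le_one.trans hM1)]
    have u0 := hKpos u _ hu (by nlinarith)
    subst u0
    simp only [norm_zero, mul_zero] at hw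
    simp [norm_le_zero_iff.1 hw]
  · simp only [sub_zero] at p q
    have hp := hz p
    have hq := hz q
    rw [nK] at hp hq
    have hs : K * (‖u‖ + ‖v‖) ≤ 3 * M * (‖u‖ + ‖v‖) := by
      nlinarith [bA (u - v), bA' u, bA' (v - u), bC v, norm_sub_le u v, norm_sub_le v u,
        mul_le_mul_of_nonneg_left (norm_sub_le u v) (zero_le_one.trans hM1),
        mul_le_mul_of_nonneg_left (norm_sub_le v u) (zero_le_one.trans hM1)]
    have h0 : ‖u‖ + ‖v‖ ≤ 0 := by
      by_contra hlt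
      have := le_of_mul_le_mul_right hs (lt_of_not_ge hlt)
      linarith
    simp [norm_le_zero_iff.1 (show ‖u‖ ≤ 0 by linarith [norm_nonneg v]),
      norm_le_zero_iff.1 (show ‖v‖ ≤ 0 by linarith [norm_nonneg u])]

/-- Everything needed about one sheet. -/
theorem exists_sheet (e : Space) (he : ‖e‖ = 1) :
    ∃ K₀ : ℝ, ∀ K, K₀ ≤ K → ∀ ε : ℝ, 0 < ε → ∃ (δ : ℝ) (T S T' S' : Space → Space)
      (U V : Set Space), 0 < δ ∧ δ ≤ ε ∧
      DifferentiableOn ℝ T' U ∧ DifferentiableOn ℝ S' V ∧ IsOpen U ∧ IsOpen V ∧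
      ContinuousOn T (Metric.ball 0 δ) ∧ ContinuousOn S (Metric.ball 0 δ) ∧
      ∀ x ∈ Metric.ball (0 : Space) δ, T x ∈ Metric.ball e ε ∧ S x ∈ Metric.ball (-e) ε ∧
        T x ∈ U ∧ S x ∈ V ∧ T' (T x) = x ∧ S' (S x) = x ∧ crit K e (x, T x, S x) = 0 := by
  classical
  have he0 : e ≠ 0 := by intro h; simp [h] at he
  have h2e : e + e ≠ 0 := by
    rw [← two_smul ℝ e]; exact smul_ne_zero two_ne_zero he0
  set a₀ : Triple := (0, e, -e) with ha₀
  set A := fderiv ℝ grad (-e)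
  set A' := fderiv ℝ grad e
  set C := fderiv ℝ grad (e + e)
  have hd : ∀ v : Space, v ≠ 0 → HasFDerivAt grad (fderiv ℝ grad v) v := fun v hv =>
    ((contDiffAt_grad hv).differentiableAt one_ne_zero).hasFDerivAt
  obtain ⟨K₀, hK₀⟩ := exists_dcrit_injective he0 h2e
  refine ⟨K₀, fun K hK ε hε => ?_⟩
  have h1 : HasFDerivAt (fun w : Triple => w.1) (ContinuousLinearMap.fst ℝ _ _) a₀ :=
    hasFDerivAt_fst
  have h2 : HasFDerivAt (fun w : Triple => w.2.1) ((ContinuousLinearMap.fst ℝ _ _).comp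
      (ContinuousLinearMap.snd ℝ Space (Space × Space))) a₀ :=
    hasFDerivAt_fst.comp a₀ hasFDerivAt_snd
  have h3 : HasFDerivAt (fun w : Triple => w.2.2) ((ContinuousLinearMap.snd ℝ _ _).comp
      (ContinuousLinearMap.snd ℝ Space (Space × Space))) a₀ :=
    hasFDerivAt_snd.comp a₀ hasFDerivAt_snd
  have hcrit : HasFDerivAt (crit K e) (dcrit A A' C K) a₀ := by
    have t1 : HasFDerivAt grad A (a₀.1 - a₀.2.1) := by
      simpa [a₀] using hd (-e) (neg_ne_zero.2 he0)
    have t2 : HasFDerivAt grad A' (a₀.1 - a₀.2.2) := by simpa [a₀] using hd e he0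
    have t3 : HasFDerivAt grad A' (a₀.2.1 - a₀.1) := by simpa [a₀] using hd e he0
    have t4 : HasFDerivAt grad C (a₀.2.1 - a₀.2.2) := by simpa [a₀] using hd (e + e) h2e
    exact (((t1.comp a₀ (h1.sub h2)).add (t2.comp a₀ (h1.sub h3))).add (h1.const_smul K)).prodMk
      ((((t3.comp a₀ (h2.sub h1)).add (t4.comp a₀ (h2.sub h3))).add_const _).add
        ((h2.sub_const e).const_smul K))
  have hcd : ContDiffAt ℝ 1 (crit K e) a₀ := by
    have c1 : ContDiffAt ℝ 1 (fun w : Triple => w.1) a₀ := contDiffAt_fst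
    have c2 : ContDiffAt ℝ 1 (fun w : Triple => w.2.1) a₀ := contDiffAt_fst.comp a₀ contDiffAt_snd
    have c3 : ContDiffAt ℝ 1 (fun w : Triple => w.2.2) a₀ := contDiffAt_snd.comp a₀ contDiffAt_snd
    have t1 : ContDiffAt ℝ 1 grad (a₀.1 - a₀.2.1) :=
      contDiffAt_grad (by simp [a₀, he0])
    have t2 : ContDiffAt ℝ 1 grad (a₀.1 - a₀.2.2) :=
      contDiffAt_grad (by simp [a₀, he0])
    have t3 : ContDiffAt ℝ 1 grad (a₀.2.1 - a₀.1) :=
      contDiffAt_grad (by simp [a₀, he0])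
    have t4 : ContDiffAt ℝ 1 grad (a₀.2.1 - a₀.2.2) :=
      contDiffAt_grad (by simpa [a₀] using h2e)
    exact (((t1.comp a₀ (c1.sub c2)).add (t2.comp a₀ (c1.sub c3))).add (c1.const_smul K)).prodMk
      ((((t3.comp a₀ (c2.sub c1)).add (t4.comp a₀ (c2.sub c3))).add contDiffAt_const).add
        ((c2.sub contDiffAt_const).const_smul K))
  have hbase : crit K e a₀ = 0 := by
    have g1 : grad e = -e := by simp [grad, he]
    have g2 : grad (e + e) = -(1 / 4 : ℝ) • e := by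
      rw [← two_smul ℝ e, grad, norm_smul, smul_smul, he]
      norm_num
    apply Prod.ext
    · simp [crit, a₀, grad_neg]
    · simp only [crit, a₀, sub_zero, sub_neg_eq_add, sub_self, smul_zero, add_zero, g1, g2,
        Prod.snd_zero]
      module
  -- the three parametrizations
  let F₁ : Triple → Triple := fun w => (w.1, crit K e w)
  let F₂ : Triple → Triple := fun w => (w.2.1, crit K e w)
  let F₃ : Triple → Triple := fun w => (w.2.2, crit K e w)
  have inj1 : Function.Injective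
      ((ContinuousLinearMap.fst ℝ Space (Space × Space)).prod (dcrit A A' C K)) := by
    rw [injective_iff_map_eq_zero]
    rintro ⟨u, v, w⟩ h
    rw [ContinuousLinearMap.prod_apply, Prod.mk_eq_zero] at h
    exact hK₀ K hK u v w h.2 (Or.inl h.1)
  have inj2 : Function.Injective (((ContinuousLinearMap.fst ℝ Space Space).comp
      (ContinuousLinearMap.snd ℝ Space (Space × Space))).prod (dcrit A A' C K)) := by
    rw [injective_iff_map_eq_zero]
    rintro ⟨u, v, w⟩ h
    rw [ContinuousLinearMap.prod_apply, Prod.mk_eq_zero] at h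
    exact hK₀ K hK u v w h.2 (Or.inr (Or.inl h.1))
  have inj3 : Function.Injective (((ContinuousLinearMap.snd ℝ Space Space).comp
      (ContinuousLinearMap.snd ℝ Space (Space × Space))).prod (dcrit A A' C K)) := by
    rw [injective_iff_map_eq_zero]
    rintro ⟨u, v, w⟩ h
    rw [ContinuousLinearMap.prod_apply, Prod.mk_eq_zero] at h
    exact hK₀ K hK u v w h.2 (Or.inr (Or.inr h.1))
  obtain ⟨g₁, g₁b, g₁l, g₁r, g₁d⟩ :=
    exists_local_inverse (f := F₁) (contDiffAt_fst.prodMk hcd) (h1.prodMk hcrit) inj1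
  obtain ⟨g₂, g₂b, g₂l, g₂r, g₂d⟩ := exists_local_inverse (f := F₂)
    ((contDiffAt_fst.comp a₀ contDiffAt_snd).prodMk hcd) (h2.prodMk hcrit) inj2
  obtain ⟨g₃, g₃b, g₃l, g₃r, g₃d⟩ := exists_local_inverse (f := F₃)
    ((contDiffAt_snd.comp a₀ contDiffAt_snd).prodMk hcd) (h3.prodMk hcrit) inj3
  let ι : Space → Triple := fun x => (x, 0, 0)
  have hι : Differentiable ℝ ι := differentiable_id.prodMk (differentiable_const _)
  have hF₁ : F₁ a₀ = ι 0 := by
    simp only [F₁, ι, hbase]; simp [a₀, Prod.ext_iff]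
  have hF₂ : F₂ a₀ = ι e := by
    simp only [F₂, ι, hbase]; simp [a₀, Prod.ext_iff]
  have hF₃ : F₃ a₀ = ι (-e) := by
    simp only [F₃, ι, hbase]; simp [a₀, Prod.ext_iff]
  rw [hF₁] at g₁b g₁r g₁d
  rw [hF₂] at g₂d
  rw [hF₃] at g₃d
  obtain ⟨U, hUsub, hUo, hUe⟩ := eventually_nhds_iff.1
    ((hι e).continuousAt.eventually g₂d)
  obtain ⟨V, hVsub, hVo, hVe⟩ := eventually_nhds_iff.1
    ((hι (-e)).continuousAt.eventually g₃d)
  have hφd : ∀ᶠ x in 𝓝 (0 : Space), DifferentiableAt ℝ g₁ (ι x) :=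
    (hι 0).continuousAt.eventually g₁d
  have hφr : ∀ᶠ x in 𝓝 (0 : Space), F₁ (g₁ (ι x)) = ι x :=
    (hι 0).continuousAt.eventually g₁r
  have hlim : Tendsto (fun x => g₁ (ι x)) (𝓝 0) (𝓝 a₀) := by
    rw [← g₁b]
    exact (hφd.self_of_nhds.comp (0 : Space) (hι 0)).continuousAt
  have hall : ∀ᶠ x in 𝓝 (0 : Space), ((g₁ (ι x)).2.1 ∈ Metric.ball e ε ∩ U ∧
      (g₁ (ι x)).2.2 ∈ Metric.ball (-e) ε ∩ V) ∧ DifferentiableAt ℝ g₁ (ι x) ∧
      F₁ (g₁ (ι x)) = ι x ∧ g₂ (F₂ (g₁ (ι x))) = g₁ (ι x) ∧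
      g₃ (F₃ (g₁ (ι x))) = g₁ (ι x) := by
    refine ((((continuous_snd.fst).continuousAt.tendsto.comp hlim).eventually_mem
      ((Metric.isOpen_ball.inter hUo).mem_nhds ⟨Metric.mem_ball_self hε, hUe⟩)).and
      (((continuous_snd.snd).continuousAt.tendsto.comp hlim).eventually_mem
      ((Metric.isOpen_ball.inter hVo).mem_nhds ⟨Metric.mem_ball_self hε, hVe⟩))).and
      (hφd.and (hφr.and ((hlim.eventually g₂l).and (hlim.eventually g₃l))))
  obtain ⟨δ, hδ, hball⟩ := Metric.eventually_nhds_iff_ball.1 hall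
  refine ⟨min δ ε, fun x => (g₁ (ι x)).2.1, fun x => (g₁ (ι x)).2.2,
    fun y => (g₂ (ι y)).1, fun z => (g₃ (ι z)).1, U, V, lt_min hδ hε, min_le_right _ _,
    fun y hy => ((hUsub y hy).comp y (hι y)).fst.differentiableWithinAt,
    fun z hz => ((hVsub z hz).comp z (hι z)).fst.differentiableWithinAt, hUo, hVo, ?_, ?_, ?_⟩
  · intro x hx
    obtain ⟨-, hdiff, -⟩ := hball x (Metric.ball_subset_ball (min_le_left _ _) hx)
    exact (hdiff.comp x (hι x)).continuousAt.snd.fst.continuousWithinAt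
  · intro x hx
    obtain ⟨-, hdiff, -⟩ := hball x (Metric.ball_subset_ball (min_le_left _ _) hx)
    exact (hdiff.comp x (hι x)).continuousAt.snd.snd.continuousWithinAt
  intro x hx
  obtain ⟨⟨hy, hz⟩, -, hr, hl2, hl3⟩ :=
    hball x (Metric.ball_subset_ball (min_le_left _ _) hx)
  have hx1 : (g₁ (ι x)).1 = x := congrArg Prod.fst hr
  have hc0 : crit K e (g₁ (ι x)) = 0 := congrArg Prod.snd hr
  have hw : (x, (g₁ (ι x)).2.1, (g₁ (ι x)).2.2) = g₁ (ι x) := Prod.ext hx1.symm rfl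
  refine ⟨hy.1, hz.1, hy.2, hz.2, ?_, ?_, by rw [hw]; exact hc0⟩
  · have : F₂ (g₁ (ι x)) = ι ((g₁ (ι x)).2.1) := by
      simp only [F₂, ι]; rw [hc0]; rfl
    dsimp only
    rw [← this, hl2, hx1]
  · have : F₃ (g₁ (ι x)) = ι ((g₁ (ι x)).2.2) := by
      simp only [F₃, ι]; rw [hc0]; rfl
    dsimp only
    rw [← this, hl3, hx1]

end Vale.Agent.P121
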